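import Vale.Agent.P216.Ch2.Ns
import Vale.Agent.P216.Ch2.H962.SlH
import Vale.Agent.P216.Ch2.H901.W3
import Vale.Agent.P216.Ch2.MV337.Sys
import Vale.Agent.P216.Ch2.H923B.Collapse

/-!
# The connecting map of `Z × (I^{m+1}, ∂I^{m+1})` as a slant (P216, block B43)
-/

open Set

namespace Vale.Agent.P216.Ch2.H923B

open Vale.Agent.P216.AS Vale.Agent.P216.Ch2.AS Vale.Agent.P216.Ch2.H962 Vale.Agent.P216.Ch2.H901 Vale.Agent.P216.Ch2.H83
open Vale.Agent.P216.Ch2.MV337 (enc dec1 dec2 dec1_enc dec2_enc enc_dec mem_cub mem_bdc)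

variable {k : Type} [Field k] {E E' : Type}

/-! ### Cochains of one arity -/

theorem KT_sgl (N : ℕ) (u : (Fin (N + 1) → E × ℝ) → k) :
    KT (sgl (N + 1) u) = sgl N (K1 k E N u) := by
  funext n
  rw [KT_apply]
  by_cases h : n = N
  · subst h
    rw [sgl_same, sgl_same]
  · rw [sgl_ne h, sgl_ne (by omega), map_zero]

/-! ### Coordinates -/

/-- `enc` on pairs. -/
def en (m : ℕ) (p : E × (Fin m → ℝ)) : Cu E m := enc m p.1 p.2

theorem en_snE (m : ℕ) (p : (E × (Fin m → ℝ)) × ℝ) :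
    en (m + 1) (snE p) = (Prod.map (en m) id p : Cu E m × ℝ) := by
  change (enc m p.1.1 (Fin.init (Fin.snoc p.1.2 p.2 : Fin (m + 1) → ℝ)),
    (Fin.snoc p.1.2 p.2 : Fin (m + 1) → ℝ) (Fin.last m)) = (enc m p.1.1 p.1.2, p.2)
  rw [Fin.init_snoc, Fin.snoc_last]

/-- One step of the integration over the cube. -/
theorem KV_en (m : ℕ) (N : ℕ) (u : (Fin (N + 1) → Cu E m × ℝ) → k) :
    KV (m + 1) (pT (en (m + 1)) (sgl (N + 1) u : TC k (Cu E m × ℝ))) =
      KV m (pT (en m) (sgl N (K1 k (Cu E m) N u))) := by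
  rw [KV_succ, ← KT_sgl, ← KT_pT]
  congr 2
  have : (en (m + 1) ∘ snE : (E × (Fin m → ℝ)) × ℝ → Cu E m × ℝ) = Prod.map (en m) id :=
    funext fun p => en_snE m p
  exact congrArg (fun f => pT f (sgl (N + 1) u)) this

theorem mk_congr {C : Amb k} {S T : Sub C} {n : ℕ} {x y : C.K n} (h : x = y) (hx : x ∈ Zc S T n)
    (hy : y ∈ Zc S T n) : H.mk x hx = H.mk y hy := by
  subst h
  rfl

section Sus

variable [PseudoMetricSpace E]

theorem van_jj {Z : Set E} {r : ℝ} {n : ℕ} {a : (Fin n → E × ℝ) → k} (h : Van (Z ×ˢ {r}) a) :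
    Van Z (P265.AS.pb (jj r) a) := by
  obtain ⟨ε, hε, h⟩ := h
  refine ⟨ε, hε, fun x hx => h _ ⟨fun i => ⟨hx.1 i, rfl⟩, fun i j => ?_⟩⟩
  change max (dist (x i) (x j)) (dist r r) < ε
  rw [dist_self]
  exact max_lt (hx.2 i j) hε

/-- The suspension of a coboundary. -/
theorem sus_d (h2 : Ok k) {Z A : Set E} {n : ℕ} {a : (Fin (n + 1) → E × ℝ) → k}
    (h0 : Van (Z ×ˢ {0}) a) (hA : Van (A ×ˢ Icc (0 : ℝ) 1) a)
    (hu : P265.AS.d a ∈ Zc (Zr (tr (E × ℝ)) (on k) (cyl Z) (bcyl Z A))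
      (Zr (tr (E × ℝ)) (on k) (cyl Z) (cyl Z)) (n + 1))
    (hv : P265.AS.pb (jj 1) a ∈ Zc (Zr (tr E) (on k) Z A) (Zr (tr E) (on k) Z Z) n) :
    sus h2 Z A n (H.mk (P265.AS.d a) hu) = H.mk (P265.AS.pb (jj 1) a) hv := by
  rw [sus_mk, H.mk_eq_mk]
  have key := d_K1 h2 a
  have h0' := van_jj h0
  cases n with
  | zero =>
    rw [mem_Bc_zero]
    refine ⟨eqv_triv _, ?_⟩
    have h3 : K1 k E 1 (P265.AS.d a) = P265.AS.pb (jj 1) a - P265.AS.pb (jj 0) a := by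
      have h4 : P265.AS.d (K1 k E 0 a) = 0 := by rw [K1_zero, P265.AS.d_zero]
      rw [h4] at key
      exact (zero_add _).symm.trans key
    change Van Z (K1 k E 1 (P265.AS.d a) - P265.AS.pb (jj 1) a)
    rw [h3, sub_sub_cancel_left]
    exact h0'.neg
  | succ n =>
    rw [mem_Bc_succ]
    refine ⟨-K1 k E (n + 1) a, ⟨eqv_triv _, (K1_van hA).neg⟩, eqv_triv _, ?_⟩
    change Van Z (K1 k E (n + 2) (P265.AS.d a) - P265.AS.pb (jj 1) a -
      P265.AS.d (-K1 k E (n + 1) a))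
    have e : K1 k E (n + 2) (P265.AS.d a) - P265.AS.pb (jj 1) a -
        P265.AS.d (-K1 k E (n + 1) a) = -P265.AS.pb (jj 0) a := by
      have h3 : K1 k E (n + 2) (P265.AS.d a) = P265.AS.pb (jj 1) a - P265.AS.pb (jj 0) a -
          P265.AS.d (K1 k E (n + 1) a) := eq_sub_of_add_eq' key
      rw [h3, P265.AS.d_neg]
      abel
    rw [e]
    exact h0'.neg

end Sus

section Metric

variable [MetricSpace E]

/-- The iterated suspension is the integration over the cube. -/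
theorem susN_mk (h2 : Ok k) {Z : Set E} {q : ℕ} : ∀ (m : ℕ)
    {u : (Fin (q + m + 1) → Cu E m) → k}
    (hu : u ∈ Zc (Zr (tr (Cu E m)) (on k) (cub m Z) (bdc m Z))
      (Zr (tr (Cu E m)) (on k) (cub m Z) (cub m Z)) (q + m)),
    ∃ h' : KV m (pT (en m) (sgl (q + m + 1) u)) (q + 1) ∈
        Zc (Zr (tr E) (on k) Z ∅) (Zr (tr E) (on k) Z Z) q,
      susN h2 Z q m (H.mk u hu) = H.mk _ h'
  | 0, u, hu => by
    have e : KV 0 (pT (en 0) (sgl (q + 0 + 1) u)) (q + 1) = u := by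
      rw [KV_zero, pT_pT]
      exact sgl_same _ _
    have hu' : KV 0 (pT (en 0) (sgl (q + 0 + 1) u)) (q + 1) ∈
        Zc (Zr (tr E) (on k) Z ∅) (Zr (tr E) (on k) Z Z) q := by
      rw [e]
      exact hu
    refine ⟨hu', ?_⟩
    exact mk_congr (C := ASK E k) (S := Zr (tr E) (on k) Z ∅) (T := Zr (tr E) (on k) Z Z)
      e.symm hu hu'
  | m + 1, u, hu => by
    obtain ⟨h', e⟩ := susN_mk h2 (Z := Z) (q := q) m (u := K1 k (Cu E m) (q + m + 1) u)
      (K1_mem_Zc h2 hu)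
    have e1 : KV (m + 1) (pT (en (m + 1)) (sgl (q + (m + 1) + 1) u)) (q + 1) =
        KV m (pT (en m) (sgl (q + m + 1) (K1 k (Cu E m) (q + m + 1) u))) (q + 1) :=
      congrFun (KV_en m (q + m + 1) u) (q + 1)
    refine ⟨by rw [e1]; exact h', ?_⟩
    exact e.trans (mk_congr (C := ASK E k) (S := Zr (tr E) (on k) Z ∅)
      (T := Zr (tr E) (on k) Z Z) e1.symm _ _)

/-! ### Metric lemmas for the coordinates -/

theorem dist_enc : ∀ (n : ℕ) (e e' : E) (y y' : Fin n → ℝ),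
    dist (enc n e y) (enc n e' y') ≤ max (dist e e') (dist y y')
  | 0, _, _, _, _ => le_max_left _ _
  | n + 1, e, e', y, y' => by
    have h1 : dist (Fin.init y : Fin n → ℝ) (Fin.init y') ≤ dist y y' := by
      rw [dist_pi_le_iff dist_nonneg]
      exact fun i => dist_le_pi_dist y y' i.castSucc
    change max (dist (enc n e (Fin.init y)) (enc n e' (Fin.init y')))
      (dist (y (Fin.last n)) (y' (Fin.last n))) ≤ _
    exact max_le ((dist_enc n _ _ _ _).trans (max_le_max le_rfl h1))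
      (le_max_of_le_right (dist_le_pi_dist y y' _))

theorem dist_dec1 : ∀ (n : ℕ) (z z' : Cu E n), dist (dec1 n z) (dec1 n z') ≤ dist z z'
  | 0, _, _ => le_rfl
  | n + 1, z, z' => (dist_dec1 n z.1 z'.1).trans (le_max_left _ _)

theorem dist_dec2 : ∀ (n : ℕ) (z z' : Cu E n), dist (dec2 n z) (dec2 n z') ≤ dist z z'
  | 0, z, z' => by
    rw [Subsingleton.elim (dec2 0 z) (dec2 0 z'), dist_self]
    exact dist_nonneg
  | n + 1, z, z' => by
    rw [dist_pi_le_iff dist_nonneg]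
    intro i
    refine Fin.lastCases ?_ (fun i => ?_) i
    · change dist ((Fin.snoc (dec2 n z.1) z.2 : Fin (n + 1) → ℝ) (Fin.last n))
        ((Fin.snoc (dec2 n z'.1) z'.2 : Fin (n + 1) → ℝ) (Fin.last n)) ≤ _
      rw [Fin.snoc_last, Fin.snoc_last]
      exact le_max_right (dist z.1 z'.1) (dist z.2 z'.2)
    · change dist ((Fin.snoc (dec2 n z.1) z.2 : Fin (n + 1) → ℝ) i.castSucc)
        ((Fin.snoc (dec2 n z'.1) z'.2 : Fin (n + 1) → ℝ) i.castSucc) ≤ _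
      rw [Fin.snoc_castSucc, Fin.snoc_castSucc]
      exact (dist_le_pi_dist (dec2 n z.1) (dec2 n z'.1) i).trans ((dist_dec2 n _ _).trans
        (le_max_left (dist z.1 z'.1) (dist z.2 z'.2)))

omit [MetricSpace E] in
theorem enc_mem_cub {m : ℕ} {Z : Set E} {z : E} {y : Fin m → ℝ} (hz : z ∈ Z) (hy : y ∈ Jc m) :
    enc m z y ∈ cub m Z := by
  rw [mem_cub, dec1_enc, dec2_enc]
  exact ⟨hz, hy⟩

omit [MetricSpace E] in
theorem enc_mem_bdc {m : ℕ} {Z : Set E} {z : E} {y : Fin m → ℝ} (hz : z ∈ Z) (hy : y ∈ bJ m) :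
    enc m z y ∈ bdc m Z := by
  rw [mem_bdc, dec2_enc]
  exact ⟨enc_mem_cub hz hy.1, hy.2⟩

omit [MetricSpace E] in
theorem dec_mem {m : ℕ} {Z : Set E} {w : Cu E m} (h : w ∈ bdc m Z) :
    dec1 m w ∈ Z ∧ dec2 m w ∈ bJ m := by
  rw [mem_bdc, mem_cub] at h
  exact ⟨h.1.1, h.1.2, h.2⟩

/-! ### The collapse data -/

/-- Collapse data. -/
structure Col (m : ℕ) (D : ℝ → (Fin (m + 1) → ℝ) → (Fin (m + 1) → ℝ)) (b : Fin (m + 1) → ℝ) :
    Prop where
  b_mem : b ∈ bJ (m + 1)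
  cont : ContinuousOn (fun p : ℝ × (Fin (m + 1) → ℝ) => D p.1 p.2) (Icc 0 1 ×ˢ bJ (m + 1))
  maps : ∀ s ∈ Icc (0 : ℝ) 1, MapsTo (D s) (bJ (m + 1)) (bJ (m + 1))
  zero : ∀ y ∈ bJ (m + 1), D 0 y = y
  one : ∀ y ∈ bJ (m + 1),
    (y (Fin.last m) ≠ 1 ∨ ∃ i : Fin m, 1 / 8 ≤ |y i.castSucc - 1 / 2|) → D 1 y = b

theorem exists_col (m : ℕ) : ∃ D b, Col m D b := by
  obtain ⟨D, b, h1, h2, h3, h4, h5⟩ := collapse m
  exact ⟨D, b, h1, h2, h3, h4, h5⟩

/-- A collapse. -/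
noncomputable def cD (m : ℕ) : ℝ → (Fin (m + 1) → ℝ) → (Fin (m + 1) → ℝ) := (exists_col m).choose

/-- Its base point. -/
noncomputable def cb (m : ℕ) : Fin (m + 1) → ℝ := (exists_col m).choose_spec.choose

theorem col (m : ℕ) : Col m (cD m) (cb m) := (exists_col m).choose_spec.choose_spec

theorem isCompact_bJ (m : ℕ) : IsCompact (bJ m) := by
  have : bJ m = Jc m ∩ ⋃ i, {v | v i = 0 ∨ v i = 1} := by
    ext v
    simp only [bJ, mem_ofPred_eq, mem_inter_iff, mem_iUnion]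
  rw [this]
  refine (isCompact_Jc m).inter_right (isClosed_iUnion_of_finite fun i => ?_)
  exact (isClosed_eq (continuous_apply i) continuous_const).union
    (isClosed_eq (continuous_apply i) continuous_const)

variable {m : ℕ} {D : ℝ → (Fin (m + 1) → ℝ) → (Fin (m + 1) → ℝ)} {b : Fin (m + 1) → ℝ}

/-- Uniform continuity of the collapse. -/
theorem Col.uc (C : Col m D b) : ∀ ε > 0, ∃ δ > 0, ∀ s ∈ Icc (0 : ℝ) 1, ∀ t ∈ Icc (0 : ℝ) 1,
    ∀ x ∈ bJ (m + 1), ∀ y ∈ bJ (m + 1), |s - t| < δ → dist x y < δ →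
      dist (D s x) (D t y) < ε := by
  intro ε hε
  have h := (isCompact_Icc.prod (isCompact_bJ (m + 1))).uniformContinuousOn_of_continuous C.cont
  rw [Metric.uniformContinuousOn_iff] at h
  obtain ⟨δ, hδ, h⟩ := h ε hε
  refine ⟨δ, hδ, fun s hs t ht x hx y hy hst hxy => h (s, x) ⟨hs, hx⟩ (t, y) ⟨ht, hy⟩ ?_⟩
  rw [Prod.dist_eq, max_lt_iff]
  exact ⟨by rwa [Real.dist_eq], hxy⟩

/-- The collapse on `E × ∂I^{m+1}`. -/
def Rw (D : ℝ → (Fin (m + 1) → ℝ) → (Fin (m + 1) → ℝ)) (s : ℝ) (w : Cu E (m + 1)) :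
    Cu E (m + 1) := enc (m + 1) (dec1 (m + 1) w) (D s (dec2 (m + 1) w))

theorem Col.htpy (C : Col m D b) (Z : Set E) :
    IsHtpy (tr (Cu E (m + 1))) (tr (Cu E (m + 1))) (bdc (m + 1) Z) (bdc (m + 1) Z)
      (Rw (E := E) D) where
  mapsX s hs w hw := enc_mem_bdc (dec_mem hw).1 (C.maps s hs (dec_mem hw).2)
  eqv _ _ i := i.elim
  uc ε hε := by
    obtain ⟨δ, hδ, h⟩ := C.uc ε hε
    refine ⟨min δ ε, lt_min hδ hε, fun s hs t ht x hx y hy hst hxy => ?_⟩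
    refine (dist_enc _ _ _ _ _).trans_lt (max_lt ?_ ?_)
    · exact (dist_dec1 _ _ _).trans_lt (hxy.trans_le (min_le_right _ _))
    · exact h s hs t ht _ (dec_mem hx).2 _ (dec_mem hy).2 (hst.trans_le (min_le_left _ _))
        ((dist_dec2 _ _ _).trans_lt (hxy.trans_le (min_le_left _ _)))

/-! ### The family -/

/-- Projection to the unit cube. -/
noncomputable def clp (v : Fin m → ℝ) : Fin m → ℝ := fun i => max 0 (min 1 (v i))

theorem clp_mem (v : Fin m → ℝ) : clp v ∈ Jc m := fun _ =>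
  ⟨le_max_left _ _, max_le zero_le_one (min_le_left _ _)⟩

theorem clp_of_mem {v : Fin m → ℝ} (h : v ∈ Jc m) : clp v = v := by
  funext i
  rw [clp, min_eq_right (h i).2, max_eq_right (h i).1]

theorem dist_clp (v w : Fin m → ℝ) : dist (clp v) (clp w) ≤ dist v w := by
  rw [dist_pi_le_iff dist_nonneg]
  intro i
  refine le_trans ?_ (dist_le_pi_dist v w i)
  rw [clp, clp, Real.dist_eq, Real.dist_eq]
  refine (abs_max_sub_max_le_max _ _ _ _).trans ?_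
  rw [sub_self, abs_zero, max_eq_right (abs_nonneg _)]
  refine (abs_min_sub_min_le_max _ _ _ _).trans ?_
  rw [sub_self, abs_zero, max_eq_right (abs_nonneg _)]

theorem clp_out {v : Fin m → ℝ} (h : Out v) : Out (clp v) := by
  obtain ⟨i, hi⟩ := h
  refine ⟨i, ?_⟩
  rw [clp]
  rcases le_abs.1 hi with h | h
  · refine le_trans ?_ (le_abs_self _)
    have : 5 / 8 ≤ max 0 (min 1 (v i)) := le_max_of_le_right (le_min (by norm_num) (by linarith))
    linarith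
  · refine le_trans ?_ (neg_le_abs _)
    have : max 0 (min 1 (v i)) ≤ 3 / 8 := max_le (by norm_num) ((min_le_right _ _).trans
      (by linarith))
    linarith

/-- The top face. -/
noncomputable def top1 (v : Fin m → ℝ) : Fin (m + 1) → ℝ := Fin.snoc (clp v) 1

theorem top1_last (v : Fin m → ℝ) : top1 v (Fin.last m) = 1 := by
  rw [top1, Fin.snoc_last]

theorem top1_cast (v : Fin m → ℝ) (i : Fin m) : top1 v i.castSucc = clp v i := by
  rw [top1, Fin.snoc_castSucc]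

theorem top1_mem (v : Fin m → ℝ) : top1 v ∈ bJ (m + 1) := by
  refine ⟨fun i => ?_, Fin.last m, Or.inr (top1_last v)⟩
  refine Fin.lastCases ?_ (fun i => ?_) i
  · rw [top1_last]
    exact ⟨zero_le_one, le_rfl⟩
  · rw [top1_cast]
    exact clp_mem v i

theorem dist_top1 (v w : Fin m → ℝ) : dist (top1 v) (top1 w) ≤ dist v w := by
  rw [dist_pi_le_iff dist_nonneg]
  intro i
  refine Fin.lastCases ?_ (fun i => ?_) i
  · rw [top1_last, top1_last, dist_self]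
    exact dist_nonneg
  · rw [top1_cast, top1_cast]
    exact (dist_le_pi_dist (clp v) (clp w) i).trans (dist_clp v w)

/-- The family. -/
noncomputable def Fm (D : ℝ → (Fin (m + 1) → ℝ) → (Fin (m + 1) → ℝ)) (Phi : Cu E (m + 1) → E')
    (p : E × (Fin m → ℝ)) : E' := Phi (enc (m + 1) p.1 (D 1 (top1 p.2)))

/-- Its value outside. -/
def f0 (b : Fin (m + 1) → ℝ) (Phi : Cu E (m + 1) → E') (z : E) : E' := Phi (enc (m + 1) z b)

variable [PseudoMetricSpace E'] {Z : Set E} {Y : Set E'} {Phi : Cu E (m + 1) → E'}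

theorem Col.isFm (C : Col m D b) (h : IsMap (tr (Cu E (m + 1))) (tr E') (bdc (m + 1) Z) Y Phi) :
    IsFm Z Y (Fm D Phi) (f0 b Phi) where
  um := by
    refine ⟨fun p hp => h.mapsX (enc_mem_bdc hp.1 (C.maps 1 ⟨zero_le_one, le_rfl⟩ (top1_mem _))),
      fun ε hε => ?_⟩
    obtain ⟨δ, hδ, h1⟩ := h.uc ε hε
    obtain ⟨η, hη, h2⟩ := C.uc δ hδ
    refine ⟨min δ η, lt_min hδ hη, fun x hx y hy hxy => h1 _ ?_ _ ?_ ?_⟩
    · exact enc_mem_bdc hx.1 (C.maps 1 ⟨zero_le_one, le_rfl⟩ (top1_mem _))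
    · exact enc_mem_bdc hy.1 (C.maps 1 ⟨zero_le_one, le_rfl⟩ (top1_mem _))
    · rw [Prod.dist_eq, max_lt_iff, lt_min_iff, lt_min_iff] at hxy
      refine (dist_enc _ _ _ _ _).trans_lt (max_lt hxy.1.1 ?_)
      exact h2 1 ⟨zero_le_one, le_rfl⟩ 1 ⟨zero_le_one, le_rfl⟩ _ (top1_mem _) _ (top1_mem _)
        (by simpa using hη) ((dist_top1 _ _).trans_lt hxy.2.2)
  out x _ v _ ho := by
    rw [Fm, f0, C.one _ (top1_mem v) (Or.inr ?_)]
    obtain ⟨i, hi⟩ := clp_out ho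
    exact ⟨i, by rwa [top1_cast]⟩

theorem Col.um_f0 (C : Col m D b)
    (h : IsMap (tr (Cu E (m + 1))) (tr E') (bdc (m + 1) Z) Y Phi) :
    IsMap (tr (Cu E (m + 1))) (tr E') (cub (m + 1) Z) Y
      (fun w => f0 b Phi (dec1 (m + 1) w)) where
  mapsX w hw := h.mapsX (enc_mem_bdc (mem_cub _ |>.1 hw).1 C.b_mem)
  eqv i := i.elim
  uc ε hε := by
    obtain ⟨δ, hδ, h1⟩ := h.uc ε hε
    refine ⟨δ, hδ, fun x hx y hy hxy => h1 _ (enc_mem_bdc (mem_cub _ |>.1 hx).1 C.b_mem) _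
      (enc_mem_bdc (mem_cub _ |>.1 hy).1 C.b_mem) ?_⟩
    refine (dist_enc _ _ _ _ _).trans_lt (max_lt ((dist_dec1 _ _ _).trans_lt hxy) ?_)
    rwa [dist_self]

/-- The map of the collapse is homotopic to the identity. -/
theorem Col.pull_eq (C : Col m D b)
    (h : IsMap (tr (Cu E (m + 1))) (tr E') (bdc (m + 1) Z) Y Phi) (n : ℕ)
    (x : Ha (tr E') (on k) Y n) :
    pull (on k) h n x = pull (on k) (h.comp (C.htpy Z).one) n x := by
  have e1 : pull (on k) h n = pull (on k) (h.comp (C.htpy Z).zero) n := by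
    refine pull_congr _ _ fun w hw => ?_
    change Phi w = Phi (enc (m + 1) (dec1 (m + 1) w) (D 0 (dec2 (m + 1) w)))
    rw [C.zero _ (dec_mem hw).2, enc_dec]
  rw [e1, pull_comp h (C.htpy Z).zero, pull_comp h (C.htpy Z).one, pull_homotopy (C.htpy Z)]

/-- The map on the boundary. -/
def g1 (D : ℝ → (Fin (m + 1) → ℝ) → (Fin (m + 1) → ℝ)) (Phi : Cu E (m + 1) → E')
    (w : Cu E m × ℝ) : E' := Phi (Rw D 1 w)

/-- The constant map. -/
def g0 (b : Fin (m + 1) → ℝ) (Phi : Cu E (m + 1) → E') (w : Cu E m × ℝ) : E' :=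
  f0 b Phi (dec1 m w.1)

/-- The difference cochain. -/
noncomputable def dc (D : ℝ → (Fin (m + 1) → ℝ) → (Fin (m + 1) → ℝ)) (b : Fin (m + 1) → ℝ)
    (Phi : Cu E (m + 1) → E') {n : ℕ} (c : (Fin n → E') → k) :
    (Fin n → Cu E m × ℝ) → k :=
  P265.AS.pb (g1 D Phi) c - P265.AS.pb (g0 b Phi) c

omit [MetricSpace E] [PseudoMetricSpace E'] in
/-- The difference vanishes where the collapse is constant. -/
theorem Col.dc_eq_zero (C : Col m D b) {n : ℕ} (c : (Fin n → E') → k)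
    {x : Fin n → Cu E m × ℝ} (hx : ∀ i, (Fin.snoc (dec2 m (x i).1) (x i).2 : Fin (m + 1) → ℝ) ∈
      bJ (m + 1) ∧ ((x i).2 ≠ 1 ∨ ∃ j : Fin m, 1 / 8 ≤ |dec2 m (x i).1 j - 1 / 2|)) :
    dc D b Phi c x = 0 := by
  change c (g1 D Phi ∘ x) - c (g0 b Phi ∘ x) = 0
  rw [sub_eq_zero]
  congr 1
  funext i
  change Phi (enc (m + 1) (dec1 m (x i).1) (D 1 (Fin.snoc (dec2 m (x i).1) (x i).2))) =
    Phi (enc (m + 1) (dec1 m (x i).1) b)
  rw [C.one _ (hx i).1]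
  rcases (hx i).2 with h | ⟨j, h⟩
  · exact Or.inl (by rwa [Fin.snoc_last])
  · exact Or.inr ⟨j, by rwa [Fin.snoc_castSucc]⟩

omit [PseudoMetricSpace E'] in
theorem Col.dc_zero (C : Col m D b) {n : ℕ} (c : (Fin n → E') → k) :
    Van (cub m Z ×ˢ ({0} : Set ℝ)) (dc D b Phi c) := by
  refine ⟨1, one_pos, fun x hx => C.dc_eq_zero c fun i => ?_⟩
  have h1 := hx.1 i
  have h2 : (x i).2 = 0 := h1.2
  refine ⟨(dec_mem (Z := Z) (m := m + 1) (w := x i) (Or.inl ⟨h1.1, Or.inl h2⟩)).2, Or.inl ?_⟩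
  rw [h2]
  exact zero_ne_one

omit [PseudoMetricSpace E'] in
theorem Col.dc_side (C : Col m D b) {n : ℕ} (c : (Fin n → E') → k) :
    Van (bdc m Z ×ˢ Icc (0 : ℝ) 1) (dc D b Phi c) := by
  refine ⟨1, one_pos, fun x hx => C.dc_eq_zero c fun i => ?_⟩
  have h1 := hx.1 i
  exact ⟨(dec_mem (Z := Z) (m := m + 1) (w := x i) (Or.inr h1)).2,
    Or.inr (out_of_bJ (dec_mem h1.1).2)⟩

/-- **The connecting map is a slant**, on representatives. -/
theorem Col.dlem (h2 : Ok k) (C : Col m D b)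
    (h : IsMap (tr (Cu E (m + 1))) (tr E') (bdc (m + 1) Z) Y Phi) (q : ℕ)
    {c : (Fin (q + m + 1) → E') → k}
    (hc : c ∈ Zc (Cc (tr E') (on k) Y) (Zr (tr E') (on k) Y Y) (q + m)) :
    ∃ h' : slT m (Fm D Phi) (f0 b Phi) (sgl (q + m + 1) c) (q + 1) ∈
        Zc (Zr (tr E) (on k) Z ∅) (Zr (tr E) (on k) Z Z) q,
      susN h2 Z q (m + 1) (lesD k (cub (m + 1) Z) (bdc (m + 1) Z) (q + m)
        (absE k (bdc (m + 1) Z) (q + m) (pull (on k) h (q + m) (H.mk c hc)))) =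
        H.mk _ h' := by
  have hg := h.comp (C.htpy Z).one
  have hκ := C.um_f0 h
  have hsub : bcyl (cub m Z) (bdc m Z) ⊆ cyl (cub m Z) := bcyl_subset (bdc_subset m Z)
  have hcd : Van Y (P265.AS.d c) := hc.2.2
  set a : (Fin (q + m + 1) → Cu E m × ℝ) → k := dc D b Phi c with ha
  -- the cochain `d a`
  have hdK : Van (cyl (cub m Z)) (P265.AS.d (P265.AS.pb (g0 b Phi) c)) := by
    rw [P265.AS.d_pb]
    exact hκ.pb_van le_rfl hκ.mapsX hcd
  have hdG : Van (bcyl (cub m Z) (bdc m Z)) (P265.AS.d (P265.AS.pb (g1 D Phi) c)) := by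
    rw [P265.AS.d_pb]
    exact hg.pb_van le_rfl hg.mapsX hcd
  have hda : P265.AS.d a = P265.AS.d (P265.AS.pb (g1 D Phi) c) -
      P265.AS.d (P265.AS.pb (g0 b Phi) c) := P265.AS.d_sub _ _
  have hda' : Van (bcyl (cub m Z) (bdc m Z)) (P265.AS.d a) := by
    rw [hda]
    exact hdG.sub (hdK.mono hsub)
  have hu : P265.AS.d a ∈ Zc (Zr (tr (Cu E m × ℝ)) (on k) (cyl (cub m Z)) (bcyl (cub m Z) (bdc m Z)))
      (Zr (tr (Cu E m × ℝ)) (on k) (cyl (cub m Z)) (cyl (cub m Z))) (q + m + 1) := by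
    rw [mem_Zc_rel]
    refine ⟨eqv_triv _, hda', ?_⟩
    rw [P265.AS.d_d]
    exact van_zero
  have hv : P265.AS.pb (jj 1) a ∈ Zc (Zr (tr (Cu E m)) (on k) (cub m Z) (bdc m Z))
      (Zr (tr (Cu E m)) (on k) (cub m Z) (cub m Z)) (q + m) := by
    rw [mem_Zc_rel]
    refine ⟨eqv_triv _, ?_, ?_⟩
    · refine van_jj ((C.dc_side c).mono (prod_mono_right ?_))
      rintro _ rfl
      exact ⟨zero_le_one, le_rfl⟩
    · rw [P265.AS.d_pb]
      refine van_jj (hda'.mono ?_)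
      exact (prod_mono_right (by simp)).trans subset_union_left
  obtain ⟨h', e4⟩ := susN_mk h2 (Z := Z) (q := q) m hv
  -- the class of `d a`
  have e1 : lesD k (cub (m + 1) Z) (bdc (m + 1) Z) (q + m)
      (absE k (bdc (m + 1) Z) (q + m) (pull (on k) h (q + m) (H.mk c hc))) =
      H.mk (P265.AS.d a) hu := by
    rw [C.pull_eq h]
    have hG : P265.AS.d (P265.AS.pb (g1 D Phi) c) ∈
        Zc (Zr (tr (Cu E m × ℝ)) (on k) (cyl (cub m Z)) (bcyl (cub m Z) (bdc m Z)))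
          (Zr (tr (Cu E m × ℝ)) (on k) (cyl (cub m Z)) (cyl (cub m Z))) (q + m + 1) := by
      rw [mem_Zc_rel]
      refine ⟨eqv_triv _, hdG, ?_⟩
      rw [P265.AS.d_d]
      exact van_zero
    have e2 : lesD k (cub (m + 1) Z) (bdc (m + 1) Z) (q + m) (absE k (bdc (m + 1) Z) (q + m)
        (pull (on k) hg (q + m) (H.mk c hc))) =
        H.mk (P265.AS.d (P265.AS.pb (g1 D Phi) c)) hG := rfl
    rw [e2]
    refine H.mk_eq_mk.2 (T_le_Bc _ _ _ ⟨eqv_triv _, ?_⟩)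
    change Van (cyl (cub m Z)) (P265.AS.d (P265.AS.pb (g1 D Phi) c) - P265.AS.d a)
    rw [hda, sub_sub_cancel]
    exact hdK
  have e3 := sus_d h2 (C.dc_zero (Z := Z) (Phi := Phi) c) (C.dc_side (Z := Z) (Phi := Phi) c) hu hv
  have e7 : susN h2 Z q (m + 1) (lesD k (cub (m + 1) Z) (bdc (m + 1) Z) (q + m)
        (absE k (bdc (m + 1) Z) (q + m) (pull (on k) h (q + m) (H.mk c hc)))) =
      H.mk (KV m (pT (en m) (sgl (q + m + 1) (P265.AS.pb (jj 1) a))) (q + 1)) h' := by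
    rw [e1]
    exact (congrArg (susN h2 Z q m) e3).trans e4
  -- the representatives
  have e8 : ∀ x : Fin (q + 1) → E, (∀ i, x i ∈ Z) →
      KV m (pT (en m) (sgl (q + m + 1) (P265.AS.pb (jj 1) a))) (q + 1) x =
        slT m (Fm D Phi) (f0 b Phi) (sgl (q + m + 1) c) (q + 1) x := by
    intro x hx
    rw [slT_apply]
    refine KV_congr m (A := Z) (fun n y hy => ?_) (q + 1) x hx
    have e9 : pT (en m) (sgl (q + m + 1) (P265.AS.pb (jj 1) a)) =
        pT (g1 D Phi ∘ jj 1 ∘ en m) (sgl (q + m + 1) c) -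
          pT (g0 b Phi ∘ jj 1 ∘ en m) (sgl (q + m + 1) c) := by
      rw [ha, dc, map_sub, sgl_sub, map_sub, pT_sgl, pT_sgl, pT_sgl, pT_sgl]
      rfl
    rw [e9]
    change sgl (q + m + 1) c n ((g1 D Phi ∘ jj 1 ∘ en m) ∘ y) -
        sgl (q + m + 1) c n ((g0 b Phi ∘ jj 1 ∘ en m) ∘ y) =
      sgl (q + m + 1) c n (Fm D Phi ∘ y) - sgl (q + m + 1) c n ((fun p => f0 b Phi p.1) ∘ y)
    have e10 : (g1 D Phi ∘ jj 1 ∘ en m) ∘ y = Fm D Phi ∘ y := funext fun i => by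
      change Phi (enc (m + 1) (dec1 m (enc m (y i).1 (y i).2))
        (D 1 (Fin.snoc (dec2 m (enc m (y i).1 (y i).2)) 1))) =
        Phi (enc (m + 1) (y i).1 (D 1 (Fin.snoc (clp (y i).2) 1)))
      rw [dec1_enc, dec2_enc, clp_of_mem (hy i).2]
    have e11 : (g0 b Phi ∘ jj 1 ∘ en m) ∘ y = (fun p => f0 b Phi p.1) ∘ y := funext fun i => by
      change f0 b Phi (dec1 m (enc m (y i).1 (y i).2)) = f0 b Phi (y i).1
      rw [dec1_enc]
    rw [e10, e11]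
  have e12 : Van Z (KV m (pT (en m) (sgl (q + m + 1) (P265.AS.pb (jj 1) a))) (q + 1) -
      slT m (Fm D Phi) (f0 b Phi) (sgl (q + m + 1) c) (q + 1)) :=
    ⟨1, one_pos, fun x hx => sub_eq_zero.2 (e8 x hx.1)⟩
  have h'' : slT m (Fm D Phi) (f0 b Phi) (sgl (q + m + 1) c) (q + 1) ∈
        Zc (Zr (tr E) (on k) Z ∅) (Zr (tr E) (on k) Z Z) q := by
    rw [mem_Zc_rel] at h' ⊢
    refine ⟨eqv_triv _, h'.2.1.mono (empty_subset _) |>.sub (e12.mono (empty_subset _)) |> fun h3 => ?_, ?_⟩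
    · rwa [sub_sub_cancel] at h3
    · have h3 := h'.2.2.sub e12.d
      rwa [P265.AS.d_sub, sub_sub_cancel] at h3
  refine ⟨h'', e7.trans ?_⟩
  exact H.mk_eq_mk.2 (T_le_Bc _ _ _ ⟨eqv_triv _, e12⟩)

/-- **The connecting map of `Z × (I^{m+1}, ∂I^{m+1})` is a slant.** -/
theorem Col.dlem_Sl (h2 : Ok k) (hm : 1 ≤ m) (C : Col m D b)
    (h : IsMap (tr (Cu E (m + 1))) (tr E') (bdc (m + 1) Z) Y Phi) (q : ℕ)
    (x : Ha (tr E') (on k) Y (q + m)) :
    susN h2 Z q (m + 1) (lesD k (cub (m + 1) Z) (bdc (m + 1) Z) (q + m)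
      (absE k (bdc (m + 1) Z) (q + m) (pull (on k) h (q + m) x))) =
      absE k Z q (Sl h2 hm (C.isFm h) q x) := by
  obtain ⟨c, hc, rfl⟩ := H.exists_mk x
  obtain ⟨h', e⟩ := C.dlem h2 h q hc
  rw [e]
  rfl

/-- The same, in the form of `Triv.th_formula`. -/
theorem Col.dlem_symm (h2 : Ok k) (hm : 1 ≤ m) (C : Col m D b)
    (h : IsMap (tr (Cu E (m + 1))) (tr E') (bdc (m + 1) Z) Y Phi) (q : ℕ)
    (x : Ha (tr E') (on k) Y (q + m)) :
    (absE k Z q).symm (susN h2 Z q (m + 1) (lesD k (cub (m + 1) Z) (bdc (m + 1) Z) (q + m)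
      (absE k (bdc (m + 1) Z) (q + m) (pull (on k) h (q + m) x)))) =
      Sl h2 hm (C.isFm h) q x := by
  rw [C.dlem_Sl h2 hm h q x, LinearEquiv.symm_apply_apply]

end Metric

end Vale.Agent.P216.Ch2.H923B
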